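import Vale.Agent.P261.H273.CritProof

/-!
# P261: finite type of `L_{K(n)} S` and countability of `π_* L_{n-1} L_{K(n)} (S/p)`

In every stable homotopy category with a suspension spectrum functor, for `n ≥ 1` and every prime
`p` with `n ^ 2 + 1 < 2 (p - 1)`, all Morava K-theories `K 0, …, K n` of heights `0, …, n` at `p`,
every `E` of the Bousfield class of `K(0) ∨ ⋯ ∨ K(n-1)`, the Moore spectrum `M = S/p`, the
localizations `Z = L_{K(n)} S` and `Y = L_E (Z ⊗ M)`:

* for every `t`, the group `π_t (Z ⊗ M)` is finite if and only if `π_t Y` is countable;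
* all `π_t Z` are finitely generated `ℤ_p`-modules if and only if all `π_t Y` are countable;
* all `π_t Z` are finitely generated if `π_t Y` is countable for the degrees
  `t = 2 (p - 1) c - s`, `2 ≤ s ≤ n ^ 2`, `c` in an interval of
  `∑_{k=1}^{n-1} (1 + p + ⋯ + p^{k-1})` integers (and for `t = -1` if `0` is in the interval);
* for `m ≤ n` and every `E'` of the class of `K(0) ∨ ⋯ ∨ K(m-1)`, the homotopy groups of
  `L_{E'} (S/p)` are countable.

The statement uses only the definitions of `P251/T/Axioms.lean`, `P251/St/Base.lean`,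
`P251/St/Chrom.lean` and `FG` of `P261/H273/Alg.lean`.
-/

open CategoryTheory MonoidalCategory

namespace Vale.Agent.Results.P261.CountableTest

open Vale.Agent.P251 Vale.Agent.P251.St Vale.Agent.P251.St.SHCat Vale.Agent.P261.H273

theorem result : (∃ T : SHCat, Nonempty (Susp T)) ∧ ∀ (T : SHCat) (S : Susp T)
    (p : ℕ) [Fact p.Prime] (n : ℕ), 1 ≤ n → n ^ 2 + 1 < 2 * (p - 1) →
    (∃ K : ℕ → RingSp T, (∀ i, IsMorava S (K i) p i) ∧ ∀ m, ∃ E : T.C, IsClassE m K E) ∧
    (∀ E X : T.C, ∃ (Y : T.C) (f : Hom X Y), IsLoc E f) ∧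
    ∀ K : ℕ → RingSp T, (∀ i ≤ n, IsMorava S (K i) p i) →
    ∀ (M : T.C) (a : Hom T.one M) (b : Hom M (sus T.one)), Dist (zmul p (ident T.one)) a b →
    (∀ (E : T.C) (Z Y : T.C) (z : Hom T.one Z) (y : Hom (ten Z M) Y), IsClassE n K E →
      IsLoc (K n).obj z → IsLoc E y →
      (∀ t : ℤ, Finite (Hom (sphere T t) (ten Z M)) ↔ Countable (Hom (sphere T t) Y)) ∧
      ((∀ t : ℤ, FG p (Hom (sphere T t) Z)) ↔ ∀ t : ℤ, Countable (Hom (sphere T t) Y)) ∧
      ∀ b : ℤ, (∀ (c : ℤ) (s : ℕ), b ≤ c →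
          c < b + (∑ k ∈ Finset.Ico 1 n, ∑ j ∈ Finset.range k, p ^ j : ℕ) → 1 ≤ s → s ≤ n ^ 2 →
          (s = 1 → c = 0) → Countable (Hom (sphere T (2 * ((p : ℤ) - 1) * c - s)) Y)) →
        ∀ t : ℤ, FG p (Hom (sphere T t) Z)) ∧
    ∀ m ≤ n, ∀ (E Y : T.C) (y : Hom M Y), IsClassE m K E → IsLoc E y →
      ∀ t : ℤ, Countable (Hom (sphere T t) Y) := by
  refine ⟨nonempty_susp, fun T S p _ n hn hs => ⟨?_, exists_isLoc T,
    fun K hK M a b hab => ⟨fun E Z Y z y hE hz hy => ⟨fun t => ?_, ?_, ?_⟩, ?_⟩⟩⟩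
  · have := locallySmall_self.{0} T.C
    obtain ⟨K, h⟩ := exists_morava p (Fact.out : p.Prime).ne_zero T S fun m =>
      X.exists_isMorava S.toSpaceFunctor (ne_two_of_sparse hn hs) m
    exact ⟨K, h, fun m => exists_classE m K⟩
  · obtain ⟨h1, h2, -, -⟩ := crit_aux S hn hs (exists_MU_cells S) (critT T hn hs) K hK hE hab
      z hz y hy
    exact ⟨h2 t, h1 t⟩
  · exact crit_fg S hn hs (exists_MU_cells S) (critT T hn hs) K hK hE hab z hz y hy
  · exact crit_window S hn hs (exists_MU_cells S) (critT T hn hs) K hK hE hab z hz y hy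
  · intro m hm E Y y hE hy t
    refine Vale.Agent.P261.M.countable_of_classE S (ne_two_of_sparse hn hs) ?_
      (exists_MU_cells S) (fun D U hJ s => Vale.Agent.P261.H36.B_cells U hJ s) K
      (fun i hi => hK i (by omega)) hE hab y hy t
    intro j hj hjm hd
    have h1 : p - 1 ≤ j := Nat.le_of_dvd hj hd
    have h2 : p - 1 ≤ n := by omega
    nlinarith [Nat.mul_le_mul h2 h2]

end Vale.Agent.Results.P261.CountableTest
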