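import Vale.Agent.P261.H273.Assembly2

/-!
# P261: homotopy groups of `L_{K(n)} S` in the sparse range

There is a stable homotopy category with a suspension spectrum functor; in each of them, for every
`n ≥ 1` and every prime `p` with `n ^ 2 + 1 < 2 (p - 1)`, Morava K-theories `K` of height `n` at `p`
and the localization `Z = L_K S` exist, and for all such data:

* `π_t Z = 0` unless `t` is congruent to one of `0, -1, …, -n ^ 2` modulo `2 (p - 1)`;
* `p ^ (1 + v_p(c))` kills `π_{2 (p - 1) c - s} Z` for `c ≠ 0`, `0 ≤ s ≤ n ^ 2`;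
* `π_{2 (p - 1) c} Z = 0` for `c ≠ 0`, and `π_0 Z` is a finitely generated `ℤ_p`-module without
  `p`-torsion;
* `π_{2 (p - 1) c - 1} Z` is finite for `c ≠ 0`, and zero if moreover `c < 0` and `n ≥ 2`;
* if `π_{2 (p - 1) c - s} Z` is a finitely generated `ℤ_p`-module for `2 ≤ s ≤ n ^ 2` and all `c` in
  an interval of `∑_{k=1}^{n-1} (1 + p + ⋯ + p^{k-1})` integers (and for `s = 1`, `c = 0` if `0` is
  in the interval), then `π_t Z` is finitely generated for all `t`.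

The statement uses only the definitions of `P251/T/Axioms.lean`, `P251/St/Base.lean`,
`P251/St/Chrom.lean` and `FG` of `P261/H273/Alg.lean`.
-/

open CategoryTheory MonoidalCategory

namespace Vale.Agent.Results.P261.FiniteDegrees

open Vale.Agent.P251 Vale.Agent.P251.St Vale.Agent.P251.St.SHCat Vale.Agent.P261.H273

theorem result : (∃ T : SHCat, Nonempty (Susp T)) ∧ ∀ (T : SHCat) (S : Susp T)
    (p : ℕ) [Fact p.Prime] (n : ℕ), 1 ≤ n → n ^ 2 + 1 < 2 * (p - 1) →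
    (∃ K : RingSp T, IsMorava S K p n) ∧ ∀ K : RingSp T, IsMorava S K p n →
    (∃ (Z : T.C) (z : Hom T.one Z), IsLoc K.obj z) ∧
    ∀ (Z : T.C) (z : Hom T.one Z), IsLoc K.obj z →
    (∀ t : ℤ, (∀ s : ℕ, s ≤ n ^ 2 → ¬ (2 * ((p : ℤ) - 1)) ∣ t + s) →
      ∀ x : Hom (sphere T t) Z, x = 0) ∧
    (∀ (c : ℤ) (s : ℕ), c ≠ 0 → s ≤ n ^ 2 →
      ∀ x : Hom (sphere T (2 * ((p : ℤ) - 1) * c - s)) Z, p ^ (1 + padicValInt p c) • x = 0) ∧
    (∀ c : ℤ, c ≠ 0 → ∀ x : Hom (sphere T (2 * ((p : ℤ) - 1) * c)) Z, x = 0) ∧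
    FG p (Hom (sphere T 0) Z) ∧ (∀ x : Hom (sphere T 0) Z, p • x = 0 → x = 0) ∧
    (∀ c : ℤ, c ≠ 0 → Finite (Hom (sphere T (2 * ((p : ℤ) - 1) * c - 1)) Z)) ∧
    (2 ≤ n → ∀ c : ℤ, c < 0 → ∀ x : Hom (sphere T (2 * ((p : ℤ) - 1) * c - 1)) Z, x = 0) ∧
    ∀ b : ℤ, (∀ (c : ℤ) (s : ℕ), b ≤ c →
        c < b + (∑ k ∈ Finset.Ico 1 n, ∑ j ∈ Finset.range k, p ^ j : ℕ) → 1 ≤ s → s ≤ n ^ 2 →
        (s = 1 → c = 0) → FG p (Hom (sphere T (2 * ((p : ℤ) - 1) * c - s)) Z)) →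
      ∀ t : ℤ, FG p (Hom (sphere T t) Z) := by
  refine ⟨nonempty_susp, fun T S p _ n hn hs => ⟨?_, fun K hK =>
    ⟨exists_isLoc T _ _, fun Z z hz => ⟨sparse S hn hs K hK z hz, kill S hn hs K hK z hz,
      zero_even S hn hs K hK z hz, fg_zero S hn hs K hK z hz, ?_, fin_one S hn hs K hK z hz,
      zero_one S hn hs K hK z hz, window2 S hn hs K hK z hz⟩⟩⟩⟩
  · have := locallySmall_self.{0} T.C
    obtain ⟨K, h⟩ := exists_morava p (Fact.out : p.Prime).ne_zero T S fun m =>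
      X.exists_isMorava S.toSpaceFunctor (ne_two_of_sparse hn hs) m
    exact ⟨K n, h n⟩
  · have h := tors_even S hn hs K hK z hz 0
    rwa [mul_zero] at h

end Vale.Agent.Results.P261.FiniteDegrees
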