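import Vale.Agent.P261.H84.QFinal

/-!
# P261: finite type of `L_{K(n)} S` and polynomial growth

There is a stable homotopy category with a suspension spectrum functor; in each of them, for every
`n ≥ 1` and every prime `p` with `n ^ 2 + 1 < 2 (p - 1)`, Morava K-theories `K` of height `n` at `p`
exist, and for all such `K` and the Moore spectrum `M = S/p`:

* for the localization `Z = L_K S`: all `π_t Z` are finitely generated `ℤ_p`-modules if and only if
  there is a constant `c` such that `π_t (Z ⊗ M)` has at most `p ^ (c (1 + |t|) ^ (n - 1))` elements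
  for all `t`;
* this bound holds if `π_t (Z ⊗ M)` is countable for the finitely many degrees
  `t = 2 (p - 1) c - s`, `1 ≤ s ≤ n ^ 2`, `c` in an interval of
  `∑_{k=1}^{n-1} (1 + p + ⋯ + p^{k-1})` integers (`c = 0` if `s = 1`);
* and then, for a constant `d`, the order of `π_{2 (p - 1) c - s} Z`, `c ≠ 0`, `s ≤ n ^ 2`, is at
  most `p ^ (d (1 + v_p(c)) (1 + |c|) ^ (n - 1))`;
* for `n ≤ 4` and each `K`-local `Y`: all `π_t Y` are finitely generated `ℤ_p`-modules if
  and only if `π_t (Y ⊗ M)` has at most `p ^ (c (1 + |t|) ^ (n - 1))` elements for all `t`, for a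
  constant `c`.
-/

namespace Vale.Agent.Results.P261.GrowthTest

open Vale.Agent.P251.St Vale.Agent.P251.St.SHCat Vale.Agent.P261.StK

theorem result : (∃ T : SHCat, Nonempty (Susp T)) ∧ ∀ (T : SHCat) (S : Susp T)
    (p : ℕ) [Fact p.Prime] (n : ℕ), 1 ≤ n → n ^ 2 + 1 < 2 * (p - 1) →
    (∃ K : RingSp T, IsMorava S K p n) ∧
    ∀ (K : RingSp T) (M : T.C) (a : Hom T.one M) (b : Hom M (sus T.one)), IsMorava S K p n →
      Dist (zmul p (ident T.one)) a b →
      (∀ (Z : T.C) (z : Hom T.one Z), IsLoc K.obj z →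
        ((∀ t : ℤ, FG p (Hom (sphere T t) Z)) ↔ Growth p (n - 1) (ten Z M)) ∧
        (∀ w : ℤ, (∀ (c : ℤ) (s : ℕ), w ≤ c →
            c < w + (∑ k ∈ Finset.Ico 1 n, ∑ j ∈ Finset.range k, p ^ j : ℕ) → 1 ≤ s → s ≤ n ^ 2 →
            (s = 1 → c = 0) →
              Countable (Hom (sphere T (2 * ((p : ℤ) - 1) * c - s)) (ten Z M))) →
          Growth p (n - 1) (ten Z M)) ∧
        (Growth p (n - 1) (ten Z M) → ∃ d : ℕ, ∀ (c : ℤ) (s : ℕ), c ≠ 0 → s ≤ n ^ 2 →
          Finite (Hom (sphere T (2 * ((p : ℤ) - 1) * c - s)) Z) ∧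
            Nat.card (Hom (sphere T (2 * ((p : ℤ) - 1) * c - s)) Z) ≤
              p ^ (d * (1 + padicValInt p c) * (1 + c.natAbs) ^ (n - 1)))) ∧
      (n ≤ 4 → ∀ Y : T.C, IsLocal K.obj Y →
        ((∀ t : ℤ, FG p (Hom (sphere T t) Y)) ↔ Growth p (n - 1) (ten Y M))) :=
  ⟨nonempty_susp, fun _ S _ _ n hn hs =>
    ⟨Vale.Agent.P261.H84.exists_morava_of_ne_two S
      (Vale.Agent.P261.H273.ne_two_of_sparse hn hs) n,
    fun _ _ _ _ hK hab =>
      ⟨fun _ _ hz =>
        ⟨⟨fun h => Vale.Agent.P261.H84.growth_sparse S hn hs hK hz hab h,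
          fun h t => Vale.Agent.P261.H84.fg_of_growth_sparse S hn hs hK hz hab h t⟩,
        fun w h => Vale.Agent.P261.H84.growth_window S hn hs hK hz hab w h,
        fun h => Vale.Agent.P261.H84.card_Z S hn hs hK hz hab h⟩,
      fun h4 _ hY => Vale.Agent.P261.H84.growth_local hn h4 hs hK hY hab⟩⟩⟩

end Vale.Agent.Results.P261.GrowthTest
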