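import Vale.Agent.P261.H84.ConvK

/-!
# P261: finite type of `L_{K(n)} S` and the thick subcategory generated by `BP⟨n⟩`

There is a stable homotopy category with a suspension spectrum functor; in each of them, for every
`n ≥ 1`, every prime `p` with `n ^ 2 + max n 2 ≤ 2 (p - 1)`, every Morava K-theory `K` of height `n`
at `p` (they exist), the localization `Z = L_K S` and each standard form `B` of the `p`-completed
truncated Brown-Peterson spectrum `BP⟨n⟩`:

* if there is an object of the thick subcategory generated by `B` which agrees with `Z` in high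
  degrees, then `π_t Z` is a finitely generated `ℤ_p`-module for all `t`, positive or negative;
* for `n ≤ 4` the converse holds.
-/

namespace Vale.Agent.Results.P261.ThickTest

open Vale.Agent.P251.St Vale.Agent.P251.St.SHCat Vale.Agent.P261.StK

theorem result : (∃ T : SHCat, Nonempty (Susp T)) ∧ ∀ (T : SHCat) (S : Susp T)
    (p : ℕ) [Fact p.Prime] (n : ℕ), 1 ≤ n → n ^ 2 + max n 2 ≤ 2 * (p - 1) →
    (∃ K : RingSp T, IsMorava S K p n) ∧
    ∀ (K : RingSp T) (B Z : T.C) (z : Hom T.one Z), IsMorava S K p n → IsStandardForm S p n B →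
      IsLoc K.obj z →
      ((∃ (X : T.C) (c : Hom X Z), Thick B X ∧ EvIso c) →
        ∀ t : ℤ, FG p (Hom (sphere T t) Z)) ∧
      (n ≤ 4 → (∀ t : ℤ, FG p (Hom (sphere T t) Z)) →
        ∃ (X : T.C) (c : Hom X Z), Thick B X ∧ EvIso c) :=
  ⟨nonempty_susp, fun _ S _ _ n hn hs =>
    ⟨Vale.Agent.P261.H84.exists_morava_of_ne_two S (Vale.Agent.P261.H84.ne_two_of_range hn hs) n,
    fun _ _ _ _ hK hB hz =>
      ⟨fun h t => Vale.Agent.P261.H84.fg_of_thickK hn hs hK hz hB h t,
      fun h4 h => Vale.Agent.P261.H84.thickK_of_fg hn hs hK hz hB h4 h⟩⟩⟩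

end Vale.Agent.Results.P261.ThickTest
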